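import Vale.Agent.Lib.P143.Proj1
import Vale.Agent.Lib.P143.Proj2
import Vale.Agent.Lib.P143.Proj3
import Vale.Agent.Lib.P143.Proj4

/-!
# Module PROJ

`mm_nonneg`, `mm_le_one`, `sq_mm_sub_le`, `tsum_qq_le`, `tsum_qq_le'`, `tendsto_mm`, `mm_congr`
(Proj2), `tendsto_mm_graph`, `mm_act`, `qq_act` (Proj3), `measurable_mm`, `measurable_qq` (Proj4).
-/
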